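import Vale.Agent.P251.H.PQColim
import Mathlib.CategoryTheory.Category.Preorder

/-!
# Sequential colimits of injections of pointed quasi-topological spaces

For a sequence of injective maps in `PQ`: the legs of a colimit cocone are injective
(`seq_inj`), every plot of the colimit lies in one stage (`seq_plot`), and every map out of
`ofLC K` factors through one stage (`seq_fac`).
-/

open CategoryTheory Topology OnePoint Limits

namespace Vale.Agent.P251CS

open Vale.Agent.P251.H Vale.Agent.P251.H.PQ
open Vale.Agent.P251.G (LC)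

/-- the two point object in which every function is a plot -/
abbrev indisc : PQ where
  carrier := Unit
  plot _ _ := True
  plot_const _ _ := trivial
  plot_comp _ _ _ _ := trivial
  plot_sum _ _ _ := trivial
  plot_surj _ _ _ _ _ := trivial

variable {F : ℕ ⥤ PQ}

theorem map_inj (h : ∀ k, Function.Injective (app (F.map (homOfLE (Nat.le_succ k)))))
    {k l : ℕ} (hkl : k ≤ l) : Function.Injective (app (F.map (homOfLE hkl))) := by
  induction l, hkl using Nat.le_induction with
  | base =>
    have e : homOfLE (le_refl k) = 𝟙 k := rfl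
    rw [e, F.map_id]
    exact fun x y hxy => hxy
  | succ l hkl ih =>
    have e : homOfLE (hkl.trans (Nat.le_succ l)) = homOfLE hkl ≫ homOfLE (Nat.le_succ l) := rfl
    rw [e, F.map_comp]
    exact fun x y hxy => ih (h l hxy)

theorem app_map_map {k l m : ℕ} (h : k ≤ l) (h' : l ≤ m) (x : OnePoint (F.obj k)) :
    app (F.map (homOfLE h')) (app (F.map (homOfLE h)) x) = app (F.map (homOfLE (h.trans h'))) x := by
  rw [← app_comp, ← F.map_comp]
  rfl

/-- `z` is eventually equal to `x` -/
def Ev (F : ℕ ⥤ PQ) {k l : ℕ} (x : OnePoint (F.obj k)) (z : OnePoint (F.obj l)) : Prop :=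
  ∃ (m : ℕ) (h : k ≤ m) (h' : l ≤ m), app (F.map (homOfLE h)) x = app (F.map (homOfLE h')) z

theorem ev_map {k l m : ℕ} (x : OnePoint (F.obj k)) (z : OnePoint (F.obj l)) (h : l ≤ m) :
    Ev F x (app (F.map (homOfLE h)) z) ↔ Ev F x z := by
  constructor
  · rintro ⟨n, h1, h2, e⟩
    exact ⟨n, h1, h.trans h2, by rw [e, app_map_map]⟩
  · rintro ⟨n, h1, h2, e⟩
    refine ⟨max n m, h1.trans (le_max_left _ _), le_max_right _ _, ?_⟩
    rw [app_map_map, ← app_map_map h1 (le_max_left n m), e, app_map_map]

open scoped Classical in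
/-- the cocone detecting the points eventually equal to `x` -/
noncomputable def evCocone (h : ∀ k, Function.Injective (app (F.map (homOfLE (Nat.le_succ k)))))
    {k : ℕ} (x : OnePoint (F.obj k)) (hx : x ≠ ∞) : Cocone F where
  pt := indisc
  ι :=
    { app := fun l => ⟨fun z => if Ev F x z then ((() : Unit) : OnePoint Unit) else ∞, by
        refine if_neg ?_
        rintro ⟨m, h1, h2, e⟩
        rw [app_infty, ← app_infty (F.map (homOfLE h1))] at e
        exact hx (map_inj h h1 e), fun _ _ _ => trivial⟩
      naturality := fun l m f => by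
        apply hom_ext'
        intro z
        have e : f = homOfLE (leOfHom f) := rfl
        change (if Ev F x (app (F.map f) z) then ((() : Unit) : OnePoint Unit) else ∞) =
          (if Ev F x z then ((() : Unit) : OnePoint Unit) else ∞)
        rw [e, ev_map] }

variable {c : Cocone F}

theorem seq_inj_aux (h : ∀ k, Function.Injective (app (F.map (homOfLE (Nat.le_succ k)))))
    (hc : IsColimit c) {k : ℕ} {x y : OnePoint (F.obj k)} (hx : x ≠ ∞)
    (e : app (c.ι.app k) x = app (c.ι.app k) y) : x = y := by
  classical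
  have key : ∀ z : OnePoint (F.obj k), app (hc.desc (evCocone h x hx)) (app (c.ι.app k) z) =
      (if Ev F x z then ((() : Unit) : OnePoint Unit) else ∞) := fun z =>
    congrArg (fun φ => app φ z) (hc.fac (evCocone h x hx) k)
  have h1 := key x
  rw [e, key y, if_pos (show Ev F x x from ⟨k, le_refl k, le_refl k, rfl⟩)] at h1
  by_cases hy : Ev F x y
  · obtain ⟨m, h2, h3, e'⟩ := hy
    exact map_inj h h2 e'
  · rw [if_neg hy] at h1
    exact absurd h1 (OnePoint.infty_ne_coe _)

/-- The legs of a sequential colimit of injections are injective. -/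
theorem seq_inj (h : ∀ k, Function.Injective (app (F.map (homOfLE (Nat.le_succ k)))))
    (hc : IsColimit c) (k : ℕ) : Function.Injective (app (c.ι.app k)) := by
  intro x y e
  by_cases hx : x = ∞
  · by_cases hy : y = ∞
    · rw [hx, hy]
    · exact (seq_inj_aux h hc hy e.symm).symm
  · exact seq_inj_aux h hc hx e

theorem app_ι_map {k l : ℕ} (h : k ≤ l) (x : OnePoint (F.obj k)) :
    app (c.ι.app l) (app (F.map (homOfLE h)) x) = app (c.ι.app k) x :=
  congrArg (fun φ => app φ x) (c.w (homOfLE h))

/-- Every plot of a sequential colimit of injections lies in one stage. -/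
theorem seq_plot (h : ∀ k, Function.Injective (app (F.map (homOfLE (Nat.le_succ k)))))
    (hc : IsColimit c) {K : CH} {f : K → OnePoint c.pt} (hf : c.pt.plot K f) :
    ∃ (k : ℕ) (a : K → OnePoint (F.obj k)), (F.obj k).plot K a ∧
      ∀ t, app (c.ι.app k) (a t) = f t := by
  have key := isColimit_plot hc hf
  clear hf
  induction key with
  | base f hf =>
    obtain ⟨j, a, ha, rfl⟩ := hf
    exact ⟨j, a, ha, fun _ => rfl⟩
  | const K x =>
    rcases isColimit_exists hc x with rfl | ⟨j, y, rfl⟩
    · exact ⟨0, fun _ => ∞, (F.obj 0).plot_const _ _, fun _ => app_infty _⟩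
    · exact ⟨j, fun _ => y, (F.obj j).plot_const _ _, fun _ => rfl⟩
  | comp g f hg _ ih =>
    obtain ⟨k, a, ha, e⟩ := ih
    exact ⟨k, fun l => a (g l), (F.obj k).plot_comp g a hg ha, fun l => e (g l)⟩
  | sum f _ _ ih1 ih2 =>
    obtain ⟨k, a, ha, e⟩ := ih1
    obtain ⟨l, b, hb, e'⟩ := ih2
    refine ⟨max k l, Sum.elim (fun t => app (F.map (homOfLE (le_max_left k l))) (a t))
      (fun t => app (F.map (homOfLE (le_max_right k l))) (b t)),
      (F.obj (max k l)).plot_sum _ (app_plot _ ha) (app_plot _ hb), ?_⟩
    rintro (t | t)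
    · exact (app_ι_map (le_max_left k l) _).trans (e t)
    · exact (app_ι_map (le_max_right k l) _).trans (e' t)
  | surj g f hg hs _ ih =>
    obtain ⟨k, a, ha, e⟩ := ih
    have e1 : ∀ t, app (c.ι.app k) (a (Function.surjInv hs t)) = f t := fun t =>
      (e _).trans (congrArg f (Function.surjInv_eq hs t))
    refine ⟨k, fun t => a (Function.surjInv hs t), (F.obj k).plot_surj g _ hg hs ?_, e1⟩
    have e2 : (fun l => a (Function.surjInv hs (g l))) = a := by
      funext l
      exact seq_inj h hc k ((e1 (g l)).trans (e l).symm)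
    rw [e2]
    exact ha

/-- Every map from a compact pointed space to a sequential colimit of injections factors through
one stage. -/
theorem seq_fac (h : ∀ k, Function.Injective (app (F.map (homOfLE (Nat.le_succ k)))))
    (hc : IsColimit c) (K : LC) (f : ofLC K ⟶ c.pt) :
    ∃ (k : ℕ) (g : ofLC K ⟶ F.obj k), g ≫ c.ι.app k = f := by
  obtain ⟨k, a, ha, e⟩ := seq_plot h hc (K := CH.of (OnePoint K)) (f := fun t => app f t)
    (app_plot f (K := CH.of (OnePoint K)) (a := fun t => t) continuous_id)
  refine ⟨k, ⟨a, ?_, fun L u hu => (F.obj k).plot_comp (K := CH.of (OnePoint K)) u a hu ha⟩, ?_⟩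
  · apply seq_inj h hc k
    rw [e, app_infty, app_infty]
  · apply hom_ext'
    intro t
    exact e t

end Vale.Agent.P251CS
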