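import Vale.Agent.P251CS.PQSeq
import Vale.Agent.P251CA.Base
import Vale.Agent.P251.H.HCofCone

/-!
# Cells are small with respect to sequences of h-cofibrations of orthogonal spectra

* `exists_cone_fac` (any `StabInput` category): the cone base factors through every h-cofibration.
* `inj_of_hCof`, `mono_of_hCof`: h-cofibrations of `CF` are levelwise injective.
* `seq_mono`, `seq_cell_fac`: for a sequence of h-cofibrations the legs of a colimit cocone are
  monomorphisms and every map out of a cell factors through one stage.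
-/

open CategoryTheory MonoidalCategory Topology OnePoint Limits

namespace Vale.Agent.P251CS

open Vale.Agent.P251.H Vale.Agent.P251.H.StabInput
open Vale.Agent.P251.G Vale.Agent.P251.G.LC

universe v u

section generic

variable {M : Type u} [Category.{v} M] [MonoidalCategory M] [SymmetricCategory M]
    [MonoidalClosed M] [HasZeroMorphisms M] [HasColimitsOfSize.{0, 0} M] [StabInput M]

/-- The base of the cone factors through every h-cofibration. -/
theorem exists_cone_fac {A B : M} {i : A ⟶ B} (hi : HCof i) :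
    ∃ r : B ⟶ A ⊗ CI M, i ≫ r = coneBase A := by
  obtain ⟨K, -, h1⟩ := hi (A ⊗ CI M) 0 (A ◁ (J M).map revII ≫ cylCone A) (by
    rw [inc_comp_map_assoc A (s := 1) (by rw [point_revII, unitInterval.symm_zero]),
      inc_one_cylCone, comp_zero])
  refine ⟨inc 1 B ≫ K, ?_⟩
  rw [← inc_naturality_assoc, h1,
    inc_comp_map_assoc A (s := 0) (by rw [point_revII, unitInterval.symm_one]), inc_zero_cylCone]

end generic

open Vale.Agent.P251CA Vale.Agent.P251CA.CF

theorem fn_base (A : P251CA.CF) {B : PQ} (p : 𝟙_ P251CA.CF ⟶ F.obj B) (k : OnePoint B)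
    (hp : fn p onePt = fm k pu) {a : P251CA.Sp0} (x : OnePoint (A.obj a)) :
    fn (FTensor B A).hom (fn (β_ A (F.obj B)).hom (fn ((ρ_ A).inv ≫ A ◁ p) x)) = sm k x := by
  rw [fn_comp, rightUnitor_inv_fn, fn_act, whiskerLeft_tm, hp, fn_act, braiding_tm, fn_act, fn_act,
    fn_FTensor_hom, pt_pu, id_whiskerRight, Category.comp_id, smul_act, smul_act, ← act_comp,
    ← act_comp, braiding_rightUnitor, Iso.inv_hom_id, act_id]

theorem fn_ptHH : fn (ptHH : 𝟙_ P251CA.CF ⟶ CI P251CA.CF) onePt =
    fm (A := PQ.ofLC HH) (((0 : NNReal) : OnePoint NNReal)) pu := by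
  have h1 : fn (Functor.LaxMonoidal.ε jC) onePt = jm (K := 𝟙_ LC) ((() : Unit) : OnePoint Unit) pu := by
    rw [Functor.LaxMonoidal.comp_ε, fn_comp]
    have h2 : fn (Functor.LaxMonoidal.ε F) onePt = fm PQ.kpu pu := fn_epsIso_hom pu
    rw [h2, fn_F_map]
    rfl
  have h3 := fn_jC_map (a := 𝟙_ P251CA.Sp0) LP.zeroHH ((() : Unit) : OnePoint Unit) pu
  exact (congrArg (fn (jC.map LP.zeroHH)) h1).trans h3

theorem smash_coe_inj {X Y : Type} (k : X) {x y : OnePoint Y}
    (h : smash (k : OnePoint X) x = smash (k : OnePoint X) y) : x = y := by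
  induction x using OnePoint.rec with
  | infty =>
    induction y using OnePoint.rec with
    | infty => rfl
    | coe y => exact absurd h (OnePoint.infty_ne_coe _)
  | coe x =>
    induction y using OnePoint.rec with
    | infty => exact absurd h (OnePoint.coe_ne_infty _)
    | coe y => exact congrArg _ (congrArg Prod.snd (OnePoint.coe_injective h))

/-- The base of the cone is levelwise injective. -/
theorem coneBase_inj (A : P251CA.CF) (a : P251CA.Sp0) :
    Function.Injective (fn (coneBase A) (a := a)) := by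
  intro x y h
  have h1 := fn_base A (B := PQ.ofLC HH) ptHH _ fn_ptHH x
  have h2 := fn_base A (B := PQ.ofLC HH) ptHH _ fn_ptHH y
  have h3 := congrArg (fun z => fn (FTensor (PQ.ofLC HH) A).hom
    (fn (β_ A (F.obj (PQ.ofLC HH))).hom z)) h
  exact smash_coe_inj (0 : NNReal) (h1.symm.trans (h3.trans h2))

/-- h-cofibrations are levelwise injective. -/
theorem inj_of_hCof {A B : P251CA.CF} {i : A ⟶ B} (hi : HCof i) (a : P251CA.Sp0) :
    Function.Injective (fn i (a := a)) := by
  obtain ⟨r, hr⟩ := exists_cone_fac hi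
  intro x y h
  apply coneBase_inj A a
  rw [← hr, fn_comp, fn_comp, h]

theorem mono_of_inj {A B : P251CA.CF} {i : A ⟶ B}
    (hi : ∀ a, Function.Injective (fn i (a := a))) : Mono i :=
  ⟨fun f g h => P251CA.CF.hom_ext fun a x => hi a (by rw [← fn_comp, h, fn_comp])⟩

theorem mono_of_hCof {A B : P251CA.CF} {i : A ⟶ B} (hi : HCof i) : Mono i :=
  mono_of_inj (inj_of_hCof hi)

variable {G : ℕ ⥤ P251CA.CF} {c : Cocone G}

/-- The legs of a sequential colimit of levelwise injections are levelwise injective. -/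
theorem seq_leg_inj
    (h : ∀ k a, Function.Injective (fn (G.map (homOfLE (Nat.le_succ k))) (a := a)))
    (hc : IsColimit c) (k : ℕ) (a : P251CA.Sp0) :
    Function.Injective (fn (c.ι.app k) (a := a)) :=
  seq_inj (F := G ⋙ ev a) (c := (ev a).mapCocone c) (fun k => h k a)
    (isColimitOfPreserves (ev a) hc) k

/-- Maps out of cells factor through a stage of a sequential colimit of levelwise injections. -/
theorem seq_cell_fac'
    (h : ∀ k a, Function.Injective (fn (G.map (homOfLE (Nat.le_succ k))) (a := a)))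
    (hc : IsColimit c) (n : ℕ) (K : LC) (f : (cell n K : P251CA.CF) ⟶ c.pt) :
    ∃ (k : ℕ) (g : (cell n K : P251CA.CF) ⟶ G.obj k), g ≫ c.ι.app k = f := by
  obtain ⟨k, g, hg⟩ := seq_fac (F := G ⋙ ev (gpow n)) (c := (ev (gpow n)).mapCocone c)
    (fun k => h k _) (isColimitOfPreserves (ev (gpow n)) hc) K
    (cellEquiv n (PQ.ofLC K) c.pt f)
  refine ⟨k, (cellEquiv n (PQ.ofLC K) (G.obj k)).symm g, ?_⟩
  apply (cellEquiv n (PQ.ofLC K) c.pt).injective
  refine (cellEquiv_comp ((cellEquiv n (PQ.ofLC K) (G.obj k)).symm g) (c.ι.app k)).trans ?_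
  exact (congrArg (· ≫ P251CA.CF.Hom.app (c.ι.app k) (gpow n))
    ((cellEquiv n (PQ.ofLC K) (G.obj k)).apply_symm_apply g)).trans hg

/-- The legs of a sequential colimit of h-cofibrations are monomorphisms. -/
theorem seq_mono (h : ∀ k, HCof (G.map (homOfLE (Nat.le_succ k)))) (hc : IsColimit c) (k : ℕ) :
    Mono (c.ι.app k) :=
  mono_of_inj (seq_leg_inj (fun k => inj_of_hCof (h k)) hc k)

/-- Maps out of cells factor through a stage of a sequential colimit of h-cofibrations. -/
theorem seq_cell_fac (h : ∀ k, HCof (G.map (homOfLE (Nat.le_succ k)))) (hc : IsColimit c)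
    (n : ℕ) (K : LC) (f : (cell n K : P251CA.CF) ⟶ c.pt) :
    ∃ (k : ℕ) (g : (cell n K : P251CA.CF) ⟶ G.obj k), g ≫ c.ι.app k = f :=
  seq_cell_fac' (fun k => inj_of_hCof (h k)) hc n K f

end Vale.Agent.P251CS
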